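import Mathlib
import Vale.Agent.P202.Length
import Vale.Agent.P202.Superficial
import Vale.Agent.P202.Main

open IsLocalRing Filter Topology

universe u v

theorem Vale.Agent.Results.P202.FibreBound.result
    {R : Type u} {S : Type v} [CommRing R] [CommRing S] [IsNoetherianRing R] [IsNoetherianRing S]
    [IsLocalRing R] [IsLocalRing S] [Algebra R S] [IsLocalHom (algebraMap R S)] [Module.Flat R S]
    (d : ℕ) (hd : 2 ≤ d) (eR eS : ℝ)
    (hR : Tendsto (fun N : ℕ => (d.factorial : ℝ) *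
      ((Module.length R (R ⧸ maximalIdeal R ^ N)).toNat : ℝ) / (N : ℝ) ^ d) atTop (𝓝 eR))
    (hS : Tendsto (fun N : ℕ => (d.factorial : ℝ) *
      ((Module.length S (S ⧸ maximalIdeal S ^ N)).toNat : ℝ) / (N : ℝ) ^ d) atTop (𝓝 eS))
    (hfib : Module.length S (S ⧸ (maximalIdeal R).map (algebraMap R S)) ≠ ⊤) :
    (∀ (P : Ideal S) (c : ℕ) (w : Fin c → S) (k : Fin c → ℕ),
      (P = (maximalIdeal R).map (algebraMap R S) ∨
        ((∀ z : S, maximalIdeal S ≠ (maximalIdeal R).map (algebraMap R S) ⊔ Ideal.span {z}) ∧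
          (maximalIdeal R).map (algebraMap R S) ≤ P ∧
          P * maximalIdeal S ≤ (maximalIdeal R).map (algebraMap R S))) →
      maximalIdeal S = P ⊔ Ideal.span (Set.range w) →
      (∀ i, w i ^ k i ∈ P ⊔ Ideal.span (w '' {j | j < i})) →
      ((Module.length S (S ⧸ (maximalIdeal R).map (algebraMap R S))).toNat : ℝ) * eR ≤
          (∏ i, (k i : ℝ)) * eS ∧
        ((∏ i, k i) ≤ (Module.length S (S ⧸ (maximalIdeal R).map (algebraMap R S))).toNat →
          eR ≤ eS)) ∧
    (∀ t : ℕ, 1 ≤ t → maximalIdeal S ^ (t + 1) ≤ (maximalIdeal R).map (algebraMap R S) →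
      (∀ z : S, maximalIdeal S ≠ (maximalIdeal R).map (algebraMap R S) ⊔ Ideal.span {z}) →
      ((Module.length S (S ⧸ (maximalIdeal R).map (algebraMap R S))).toNat : ℝ) * eR ≤
        (t : ℝ) ^ d * eS) ∧
    (maximalIdeal S ^ 2 ≤ (maximalIdeal R).map (algebraMap R S) → eR ≤ eS) := by
  have h1 : 1 ≤ (Module.length S (S ⧸ (maximalIdeal R).map (algebraMap R S))).toNat :=
    Vale.Agent.P202.Fibre.one_le_toNat hfib
  have hlam : (1 : ℝ) ≤
      ((Module.length S (S ⧸ (maximalIdeal R).map (algebraMap R S))).toNat : ℝ) := by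
    exact_mod_cast h1
  have main : ∀ (P : Ideal S) (c : ℕ) (w : Fin c → S) (k : Fin c → ℕ),
      (P = (maximalIdeal R).map (algebraMap R S) ∨
        ((∀ z : S, maximalIdeal S ≠ (maximalIdeal R).map (algebraMap R S) ⊔ Ideal.span {z}) ∧
          (maximalIdeal R).map (algebraMap R S) ≤ P ∧
          P * maximalIdeal S ≤ (maximalIdeal R).map (algebraMap R S))) →
      maximalIdeal S = P ⊔ Ideal.span (Set.range w) →
      (∀ i, w i ^ k i ∈ P ⊔ Ideal.span (w '' {j | j < i})) →
      ((Module.length S (S ⧸ (maximalIdeal R).map (algebraMap R S))).toNat : ℝ) * eR ≤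
          (∏ i, (k i : ℝ)) * eS :=
    fun P c w k hP hgen hpow =>
      Vale.Agent.P202.Fibre.fibre_bound hd hR hS hfib P hP c w k hgen hpow
  refine ⟨fun P c w k hP hgen hpow => ⟨main P c w k hP hgen hpow, fun hk => ?_⟩,
    fun t ht htI hne => Vale.Agent.P202.Fibre.loewy_bound ht hR hS htI hne,
    fun hsq => Vale.Agent.P202.Fibre.square_zero hd hR hS hfib hsq⟩
  have hk' : (∏ i, (k i : ℝ)) ≤
      ((Module.length S (S ⧸ (maximalIdeal R).map (algebraMap R S))).toNat : ℝ) := by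
    exact_mod_cast hk
  refine le_of_mul_le_mul_left ((main P c w k hP hgen hpow).trans ?_) (lt_of_lt_of_le one_pos hlam)
  exact mul_le_mul_of_nonneg_right hk' (Vale.Agent.P202.Fibre.eS_nonneg hS)
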